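import Vale.Agent.P132.Bd8.B6
import Vale.Agent.P132.Bd8.B1

/-!
# P132: Connes' bicentralizer conjecture

For every type III₁ factor `M` and every faithful normal state `φ` of `M`, the bicentralizer
`B(M, φ)` consists of the scalars.
-/

namespace Vale.Agent.Results.P132.ConnesBicentralizer

open Vale.Agent.P132

universe u

/-- **Connes' bicentralizer conjecture**. -/
theorem result :
    ∀ (H : Type u) [NormedAddCommGroup H] [InnerProductSpace ℂ H] [CompleteSpace H]
      (M : VonNeumannAlgebra H), IsTypeIII₁Factor M →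
      ∀ φ : (H →L[ℂ] H) → ℂ, IsNormalState M φ → IsFaithful M φ →
        bicentralizer M φ = {a | ∃ c : ℂ, a = c • 1} := by
  intro H _ _ _ M hM φ hφ hf
  exact bicentralizer_eq_of hM.factor (isTypeIII_of_state hM.factor hφ hf hM.typeIII)
    hM.connes hφ hf
    (fun K _ _ _ N ξ h1 h2 h3 => exists_modData N ξ h1 h2 h3)
    (fun K _ _ _ N ξ D h1 h2 h3 x hx => D.core h1 h2 h3 x hx)

end Vale.Agent.Results.P132.ConnesBicentralizer
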