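import Vale.Agent.P132.Bd8.B6

/-!
# P132: Connes' bicentralizer conjecture

For every type III₁ factor `M` (a factor with `S(M) = [0, ∞)`, where `S(M)` is the intersection of
the spectra of the modular operators of all faithful normal semifinite weights) and every faithful
normal state `φ` of `M`, the bicentralizer `B(M, φ)` consists of the scalars.
-/

namespace Vale.Agent.Results.P132.ConnesBicentralizerWeights

open Vale.Agent.P132

universe u

/-- **Connes' bicentralizer conjecture**. -/
theorem result :
    ∀ (H : Type u) [NormedAddCommGroup H] [InnerProductSpace ℂ H] [CompleteSpace H]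
      (M : VonNeumannAlgebra H), IsTypeIIIOneFactor M →
      ∀ φ : (H →L[ℂ] H) → ℂ, IsNormalState M φ → IsFaithful M φ →
        bicentralizer M φ = {a | ∃ c : ℂ, a = c • 1} := by
  intro H _ _ _ M hM φ hφ hf
  exact bicentralizer_eq_of_weights hM hφ hf

end Vale.Agent.Results.P132.ConnesBicentralizerWeights
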